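import Vale.Agent.N334.Top

/-!
Metric `k`-median: the approximation threshold `1 + 2 / e` for deterministic algorithms.
-/

namespace Vale.Agent.Results.P334.A0Deterministic

open Vale.Agent.P334 Vale.Agent.N334

/-- For every `ε > 0` there is a deterministic polynomial time `(1 + 2 / e + ε)`-approximation
algorithm for metric `k`-median. Unless NP is contained in P the threshold for deterministic
algorithms is `1 + 2 / e`. -/
theorem result : (∀ ε : ℝ, 0 < ε → HasDetApprox (1 + 2 / Real.exp 1 + ε)) ∧
    (¬ NP ⊆ P → alphaDet = 1 + 2 / Real.exp 1) :=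
  ⟨fun _ hε => hasDetApprox hε, alphaDet_eq⟩

end Vale.Agent.Results.P334.A0Deterministic
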